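import Vale.Agent.Lib.P049.Basic

namespace Vale.Agent.Results.P049.DenseRange

/-- Every `d`-regular simple graph on `n ≤ d + 2 * sqrt (d - 1)` vertices is Ramanujan. -/
theorem result : ∀ {V : Type} [Fintype V] (G : SimpleGraph V) [DecidableRel G.Adj] (d : ℕ),
    G.IsRegularOfDegree d →
    (Fintype.card V : ℝ) ≤ (d : ℝ) + 2 * Real.sqrt ((d : ℝ) - 1) →
    Vale.Agent.Lib.P049.IsRamanujan G d :=
  fun G _ d hG hn => Vale.Agent.Lib.P049.isRamanujan_of_card_le G d hG hn

end Vale.Agent.Results.P049.DenseRange
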